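import Vale.Agent.P285N.All

/-! P270: generalised abundance for numerical dimension at most one. -/

open scoped Manifold ContDiff ComplexOrder Topology
open Vale.Agent.P272.K Vale.Agent.P285.H281.FD Vale.Agent.P285Z.St Vale.Agent.P285N.St
open Vale.Agent.P285.H716.AB (NumDim)

namespace Vale.Agent.Results.P270.ABNuOne

/-- Let `X` be a connected projective manifold of dimension `n`, `B = (1/q) div t`, `M` a nef line
bundle and `r ≤ 1`.

(1) If `(X, B)` is klt, `K_X + B` is pseudo-effective and `D = q (K_X + B) + M` is nef of numerical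
dimension `r`, then `D` is numerically semiample.

(2) Let `X` be a resolution of a normal projective variety `X₀`, let `D` be the pull back of a nef
line bundle on `X₀` and `E = div s` an exceptional divisor. If `(X, B - E)` is klt,
`C = q (K_X + B - E)` is pseudo-effective, `D = C + M` and `D` has numerical dimension `r`, then `D`
is numerically semiample. -/
theorem result (n : ℕ) (X : Type) [TopologicalSpace X] [ChartedSpace (Cm n) X]
    [IsManifold 𝓘(ℂ, Cm n) ω X] [T2Space X] [CompactSpace X] [ConnectedSpace X]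
    (w : Chart n X → Cm n → Matrix (Fin n) (Fin n) ℂ) (hw : IsKahler w) (hP : Projective n X)
    (T : Bd X) (t : T.ι → X → ℂ) (q r : ℕ) (hr : r ≤ 1) (M : Bd X) (hM : IsLB n M)
    (hn : Nef w M) :
    (Divisor n T t → 1 ≤ q → Klt n q T t → Psef n (logCan n q T) → Nef w ((logCan n q T).mul M) →
      NumDim w ((logCan n q T).mul M) r → NumSemiample n ((logCan n q T).mul M)) ∧
    ∀ (A : Bd X) (N : ℕ) (S : Fin N → A.ι → X → ℂ) (D E : Bd X) (s : E.ι → X → ℂ) (C : Bd X),
      Birat n A S D E s → SubPair n E s T t q C → Psef n C → Iso n D (C.mul M) → NumDim w D r →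
      NumSemiample n D :=
  ⟨fun h1 h2 h3 h4 h5 h6 => Vale.Agent.P285N.Tp.rows.gab0 (V := ⟨X⟩) Vale.Agent.P285N.Tp.o1g ‹_› hP
      hw h1 h2 h3 h4 hM hn h5 hr h6,
    fun A N S D E s _ h1 h2 h3 h4 h5 => Vale.Agent.P285N.Tp.rows.gab1 (V := ⟨X⟩)
      (Q := ⟨A, N, S, D, E, s⟩) Vale.Agent.P285N.Tp.o1g ⟨‹_›, hP, h1⟩ hw h2 h3 hM hn h4 hr h5⟩

end Vale.Agent.Results.P270.ABNuOne
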