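import Vale.Agent.P285Z.FinalN

/-! P270: extension of sections of nef line bundles on klt Calabi-Yau pairs. -/

open scoped Manifold ContDiff ComplexOrder Topology
open Vale.Agent.P272.K Vale.Agent.P285.H281.FD Vale.Agent.P285Z.St
open Vale.Agent.P285Z (xS)
open Vale.Agent.P285Z.Br

namespace Vale.Agent.Results.P270.CalabiYauExtension

/-- Let `X` be a connected projective manifold of dimension `n`, `B = (1/q) div t`, `(X, B)` klt.

(1) Let `K_X + B` be numerically trivial, `D` a nef line bundle, `F` a flat line bundle, `k ≥ 1`,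
`L = k D + F`, `s` a nonzero section of `a L`, `a ≥ 1`, `Z` the scheme `s = 0`. Then
`H⁰(X, m L) → H⁰(Z, m L)` is surjective for `m > a`. If `L` restricted to `Z` is semiample, then `L`
is semiample and `D` is numerically semiample.

(2) Let `L` be nef and adjoint to a klt pair, on `X` or on a normal projective variety of which `X`
is a resolution, `s` a nonzero section of `a L`, `a ≥ 1`, `S = div σ` with `Supp S ⊆ Supp div s`,
`N` a line bundle such that `N - S - b L - K_X - B` is semipositive, `b > 0`. Then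
`H⁰(X, N) → H⁰(S, N)` is surjective. -/
theorem result (n : ℕ) (X : Type) [TopologicalSpace X] [ChartedSpace (Cm n) X]
    [IsManifold 𝓘(ℂ, Cm n) ω X] [T2Space X] [CompactSpace X] [ConnectedSpace X]
    (w : Chart n X → Cm n → Matrix (Fin n) (Fin n) ℂ) (hw : IsKahler w) (hP : Projective n X)
    (T : Bd X) (t : T.ι → X → ℂ) (q : ℕ) (hT : Divisor n T t) (hq : 1 ≤ q) (hk : Klt n q T t) :
    (Flat n (logCan n q T) → ∀ (D F L : Bd X) (k : ℕ), IsLB n D → Nef w D → IsLB n F → Flat n F →
      1 ≤ k → L = (D.pow k).mul F →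
      ∀ (a : ℕ) (s : L.ι → X → ℂ), 1 ≤ a → Divisor n (L.pow a) s →
      (∀ m : ℕ, a < m → Extends n (L.pow m) (L.pow a) s) ∧
        (SemiampleOn n L (L.pow a) s → Semiample n L ∧ NumSemiample n D)) ∧
    ∀ L : Bd X, KltAdjoint n w L →
      ∀ (a : ℕ) (s : L.ι → X → ℂ), 1 ≤ a → Divisor n (L.pow a) s →
      ∀ (S : Bd X) (σ : S.ι → X → ℂ), Divisor n S σ → SuppLe n S σ (L.pow a) s →
      ∀ (N : Bd X) (b : ℝ), IsLB n N → 0 < b → ExtClass n b N S L T q → Extends n N S σ := by
  refine ⟨?_, fun L hL a s ha hs S σ hS hd N b hN hb hc =>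
    ext_of_adj xS hw hP hL ha hs hS hd hT hq hk hN hb hc⟩
  rintro hf D F L k hD hn hF hF' hk1 rfl a s ha hs
  have hL := (((same_toLB D hD).pow k).mul (same_toLB F hF)).isLB
  have h1 := kollar xS hw hP hL (nef_pow_mul_flat hD hF hn hF' hk1) hT hq hk (j := 0) le_rfl
    (adj_flat hw.toIsHermitian hT.lb hq hf hL) ha hs
  refine ⟨fun m hm => h1.1 m ?_, fun h => ⟨h1.2 h, numSemiample_of hF hF' hk1 (h1.2 h)⟩⟩
  rw [add_zero]
  exact_mod_cast hm

end Vale.Agent.Results.P270.CalabiYauExtension
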