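import Vale.Agent.P285Z.FinalZ

/-! P270: nef line bundles on klt Calabi-Yau pairs have singular metrics with semipositive
curvature current and zero Lelong numbers. -/

open scoped Manifold ContDiff ComplexOrder Topology
open Vale.Agent.P272.K Vale.Agent.P285.H281.FD Vale.Agent.P285Z.St

namespace Vale.Agent.Results.P270.CalabiYauMetrics

/-- Let `X` be a connected projective manifold of dimension `n`.

(1) If `(X, B)`, `B = (1/q) div t`, is klt and `K_X + B` is numerically trivial, then every nef line
bundle `L` on `X` has a singular metric with semipositive curvature current, all Lelong numbers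
zero and all multiplier ideals trivial.

(2) The same for every line bundle `L` on `X` which is nef and adjoint to a klt pair, on `X` or on a
normal projective variety of which `X` is a resolution. -/
theorem result (n : ℕ) (X : Type) [TopologicalSpace X] [ChartedSpace (Cm n) X]
    [IsManifold 𝓘(ℂ, Cm n) ω X] [T2Space X] [CompactSpace X] [ConnectedSpace X]
    (w : Chart n X → Cm n → Matrix (Fin n) (Fin n) ℂ) (hw : IsKahler w) (hP : Projective n X) :
    (∀ (T : Bd X) (t : T.ι → X → ℂ) (q : ℕ), Divisor n T t → 1 ≤ q → LocInt n T t (1 / (q : ℝ)) →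
      Flat n (logCan n q T) → ∀ L : Bd X, IsLB n L → Nef w L → ZeroLelong n L) ∧
    ∀ L : Bd X, KltAdjoint n w L → ZeroLelong n L :=
  ⟨fun _ _ _ hT hq hk hf _ hL hn => Vale.Agent.P285Z.Br.zl_of_adj hw hP
      (Vale.Agent.P285Z.Br.kltAdj_flat hw.toIsHermitian hT hq hk hf hL hn),
    fun _ h => Vale.Agent.P285Z.Br.zl_of_adj hw hP h⟩

end Vale.Agent.Results.P270.CalabiYauMetrics
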